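import Crest.Agent.N337.BasicE

/-!
# Row 337, basics V: reindexing, dependence on the field `h`.
Import this file to get all the basics (`BasicG`, `BasicH`, `BasicS`, `BasicE`).
-/

set_option autoImplicit false

namespace Crest.Agent.N337

open Crest.MathPhysics.SpinModel Filter Topology Matrix

section reix
variable {X X' : Type} [Fintype X] [DecidableEq X] [Fintype X'] [DecidableEq X'] {n : ℕ}

/-- transport of configurations. -/
def cfg (n : ℕ) (e : X ≃ X') : (X → Fin (n + 1)) ≃ (X' → Fin (n + 1)) :=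
  Equiv.arrowCongr e (Equiv.refl _)

/-- transport of operators along a bijection of sites. -/
noncomputable def reix (n : ℕ) (e : X ≃ X') : Op X n ≃ₐ[ℂ] Op X' n :=
  Matrix.reindexAlgEquiv ℂ ℂ (cfg n e)

theorem reix_apply (e : X ≃ X') (A : Op X n) (σ τ : X' → Fin (n + 1)) :
    reix n e A σ τ = A (σ ∘ e) (τ ∘ e) := rfl

theorem reix_site (e : X ≃ X') (x : X) (A : Matrix (Fin (n + 1)) (Fin (n + 1)) ℂ) :
    reix n e (siteOpOn x A) = siteOpOn (e x) A := by
  ext σ τ
  rw [reix_apply, site_apply, site_apply]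
  refine if_congr ⟨fun h y hy => ?_, fun h y hy => h (e y) (e.injective.ne hy)⟩ rfl rfl
  have := h (e.symm y) fun h' => hy (by rw [← h']; simp)
  simpa using this

theorem reix_Sp (e : X ≃ X') (x : X) : reix n e (Sp n x) = Sp n (e x) := reix_site e x _
theorem reix_Sm (e : X ≃ X') (x : X) : reix n e (Sm n x) = Sm n (e x) := reix_site e x _
theorem reix_Sz (e : X ≃ X') (x : X) : reix n e (Sz n x) = Sz n (e x) := reix_site e x _
theorem reix_num (e : X ≃ X') (x : X) : reix n e (num n x) = num n (e x) := by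
  simp only [num, map_sub, map_smul, map_one, reix_Sz]
theorem reix_SpF (e : X ≃ X') (a : X → ℝ) : reix n e (SpF n a) = SpF n (a ∘ e.symm) := by
  simp only [SpF, map_sum, map_smul, reix_Sp]
  exact Fintype.sum_equiv e _ _ fun x => by simp
theorem reix_SmF (e : X ≃ X') (a : X → ℝ) : reix n e (SmF n a) = SmF n (a ∘ e.symm) := by
  simp only [SmF, map_sum, map_smul, reix_Sm]
  exact Fintype.sum_equiv e _ _ fun x => by simp
theorem reix_magn (e : X ≃ X') : reix n e (magn X n) = magn X' n := by
  simp only [magn, map_sum, reix_Sz]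
  exact Fintype.sum_equiv e _ _ fun x => rfl

theorem trace_reix (e : X ≃ X') (A : Op X n) : (reix n e A).trace = A.trace :=
  (Fintype.sum_equiv (cfg n e) _ _ fun σ => by
    simp only [Matrix.diag_apply, reix_apply]
    congr 1 <;> (funext x; simp [cfg])).symm

variable {J : X → X → ℝ} {J' : X' → X' → ℝ} {e : X ≃ X'}

theorem reix_ham (hJ : ∀ x y, J' (e x) (e y) = J x y) : reix n e (ham n J) = ham n J' := by
  simp only [ham, spinDotOn_eq, map_smul, map_sum, map_add, map_mul, reix_Sp, reix_Sm, reix_Sz]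
  congr 1
  refine Fintype.sum_equiv e _ _ fun x => Fintype.sum_equiv e _ _ fun y => by rw [hJ]

theorem reix_hamF (hJ : ∀ x y, J' (e x) (e y) = J x y) (h : ℝ) :
    reix n e (hamF n J h) = hamF n J' h := by
  simp only [hamF, map_sub, map_smul, reix_ham hJ, reix_magn]

theorem reix_exp (e : X ≃ X') (A : Op X n) :
    reix n e (NormedSpace.exp A) = NormedSpace.exp (reix n e A) := by
  open scoped Matrix.Norms.Operator in
  exact NormedSpace.map_exp (reix n e) (continuous_matrix fun σ τ => by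
    simp only [reix_apply]; fun_prop) A

theorem reix_W (hJ : ∀ x y, J' (e x) (e y) = J x y) (h t : ℝ) :
    reix n e (W n J h t) = W n J' h t := by
  simp only [W, reix_exp, map_smul, reix_hamF hJ]

theorem Zp_reix (hJ : ∀ x y, J' (e x) (e y) = J x y) (β h : ℝ) : Zp n J' β h = Zp n J β h := by
  simp only [Zp, ← reix_W hJ, trace_reix]

theorem ev_reix (hJ : ∀ x y, J' (e x) (e y) = J x y) (β h : ℝ) (A : Op X n) :
    ev n J' β h (reix n e A) = ev n J β h A := by
  simp only [ev, Zp_reix hJ, ← reix_W hJ, ← map_mul, trace_reix]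

theorem duh_reix (hJ : ∀ x y, J' (e x) (e y) = J x y) (β h : ℝ) (A B : Op X n) :
    duh n J' β h (reix n e A) (reix n e B) = duh n J β h A B := by
  simp only [duh, Zp_reix hJ, ← reix_W hJ, ← map_mul, trace_reix]

theorem press_reix (hJ : ∀ x y, J' (e x) (e y) = J x y) (β h : ℝ) :
    press n J' β h = press n J β h := by
  simp only [press, Zp_reix hJ, Fintype.card_congr e]

end reix

section field
variable {X : Type} [Fintype X] [DecidableEq X] {n : ℕ} (J : X → X → ℝ)

theorem W_field (β h : ℝ) :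
    W n J h β = W n J 0 β * diagonal fun σ => ((Real.exp (β * h * mval n σ) : ℝ) : ℂ) := by
  have e : (-(β : ℂ)) • hamF n J h = (-(β : ℂ)) • hamF n J 0 +
      diagonal fun σ => ((β * h * mval n σ : ℝ) : ℂ) := by
    rw [hamF_zero, hamF, smul_sub, magn_eq, smul_smul, sub_eq_add_neg, ← neg_smul,
      ← Matrix.diagonal_smul]
    congr 2; funext σ; simp
  have hc : Commute ((-(β : ℂ)) • hamF n J 0)
      (diagonal fun σ => ((β * h * mval n σ : ℝ) : ℂ)) := by
    have : (diagonal fun σ => ((β * h * mval n σ : ℝ) : ℂ)) = ((β * h : ℝ) : ℂ) • magn X n := by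
      rw [magn_eq, ← Matrix.diagonal_smul]; congr 1; funext σ; simp
    rw [this]
    exact ((magn_commute_hamF J 0).symm.smul_left _).smul_right _
  unfold W
  rw [e, Matrix.exp_add_of_commute _ _ hc, Matrix.exp_diagonal]
  congr 2; funext σ
  rw [Pi.coe_exp, ← Complex.exp_eq_exp_ℂ, Complex.ofReal_exp]

theorem trace_mul_W (β h : ℝ) (A : Op X n) : (A * W n J h β).trace.re =
    ∑ σ, ((A * W n J 0 β) σ σ).re * Real.exp (β * h * mval n σ) := by
  rw [W_field, ← Matrix.mul_assoc]
  simp only [Matrix.trace, Matrix.diag_apply, Matrix.mul_diagonal, Complex.re_sum,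
    Complex.re_mul_ofReal]

theorem Zp_eq (β h : ℝ) :
    Zp n J β h = ∑ σ, (W n J 0 β σ σ).re * Real.exp (β * h * mval n σ) := by
  have := trace_mul_W J β h (1 : Op X n)
  simpa only [Matrix.one_mul, Zp] using this

theorem W_diag_pos (h t : ℝ) (σ : X → Fin (n + 1)) : 0 < (W n J h t σ σ).re :=
  (gW_diag_pos (hamF_herm J h) t σ).2

theorem continuous_Zp (β : ℝ) : Continuous fun h => Zp n J β h := by
  simp only [Zp_eq J β]; fun_prop

theorem continuous_ev (β : ℝ) (A : Op X n) : Continuous fun h => ev n J β h A := by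
  unfold ev
  refine Continuous.div ?_ (continuous_Zp J β) fun h => (Zp_pos J β h).ne'
  simp only [trace_mul_W J β _ A]; fun_prop

/-- expectation of a real diagonal operator. -/
theorem ev_diagonal (β h : ℝ) (d : (X → Fin (n + 1)) → ℝ) :
    ev n J β h (diagonal fun σ => ((d σ : ℝ) : ℂ)) =
      (∑ σ, d σ * ((W n J 0 β σ σ).re * Real.exp (β * h * mval n σ))) / Zp n J β h := by
  unfold ev
  rw [trace_mul_W]
  simp only [Matrix.diagonal_mul, Complex.re_ofReal_mul, mul_assoc]

theorem hasDerivAt_Zp (β h : ℝ) :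
    HasDerivAt (fun h => Zp n J β h) (β * (ev n J β h (magn X n) * Zp n J β h)) h := by
  rw [magn_eq, ev_diagonal, div_mul_cancel₀ _ (Zp_pos J β h).ne', Finset.mul_sum]
  simp only [Zp_eq J β]
  refine HasDerivAt.fun_sum fun σ _ => ?_
  have h1 : HasDerivAt (fun h : ℝ => β * h * mval n σ) (β * 1 * mval n σ) h :=
    ((hasDerivAt_id h).const_mul β).mul_const _
  exact (h1.exp.const_mul (W n J 0 β σ σ).re).congr_deriv (by ring)

theorem hasDerivAt_press {β : ℝ} (hβ : β ≠ 0) (h : ℝ) :
    HasDerivAt (press n J β) ((∑ x, ev n J β h (Sz n x)) / (Fintype.card X : ℝ)) h := by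
  have h1 := ((hasDerivAt_Zp (n := n) J β h).log (Zp_pos J β h).ne').div_const
    (β * (Fintype.card X : ℝ))
  refine HasDerivAt.congr_deriv h1 (Eq.symm ?_)
  rw [← ev_sum, ← magn, ← mul_assoc, mul_div_assoc _ _ (Zp n J β h), div_self (Zp_pos J β h).ne',
    mul_one, mul_div_mul_left _ _ hβ]

theorem convexOn_log_Zp (β : ℝ) : ConvexOn ℝ Set.univ fun h => Real.log (Zp n J β h) := by
  refine ⟨convex_univ, fun h _ k _ a b ha hb hab => ?_⟩
  simp only [smul_eq_mul]
  have hA := Zp_pos (n := n) J β h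
  have hB := Zp_pos (n := n) J β k
  rw [Real.log_le_iff_le_exp (Zp_pos J β _), Zp_eq]
  set c := a * Real.log (Zp n J β h) + b * Real.log (Zp n J β k) with hc
  have key : ∀ σ : X → Fin (n + 1), Real.exp (β * (a * h + b * k) * mval n σ) ≤
      Real.exp c * (a * (Real.exp (β * h * mval n σ) / Zp n J β h) +
        b * (Real.exp (β * k * mval n σ) / Zp n J β k)) := fun σ => by
    have h1 := convexOn_exp.2 (Set.mem_univ (β * h * mval n σ - Real.log (Zp n J β h)))
      (Set.mem_univ (β * k * mval n σ - Real.log (Zp n J β k))) ha hb hab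
    simp only [smul_eq_mul, Real.exp_sub, Real.exp_log hA, Real.exp_log hB] at h1
    have e : β * (a * h + b * k) * mval n σ = c + (a * (β * h * mval n σ - Real.log (Zp n J β h)) +
        b * (β * k * mval n σ - Real.log (Zp n J β k))) := by rw [hc]; ring
    rw [e, Real.exp_add]
    exact mul_le_mul_of_nonneg_left h1 (Real.exp_pos _).le
  calc _ ≤ ∑ σ, (W n J 0 β σ σ).re * (Real.exp c * (a * (Real.exp (β * h * mval n σ) / Zp n J β h) +
        b * (Real.exp (β * k * mval n σ) / Zp n J β k))) :=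
        Finset.sum_le_sum fun σ _ => mul_le_mul_of_nonneg_left (key σ) (W_diag_pos J 0 β σ).le
    _ = Real.exp c * (a * ((∑ σ, (W n J 0 β σ σ).re * Real.exp (β * h * mval n σ)) / Zp n J β h) +
        b * ((∑ σ, (W n J 0 β σ σ).re * Real.exp (β * k * mval n σ)) / Zp n J β k)) := by
        simp only [Finset.sum_div, Finset.mul_sum, ← Finset.sum_add_distrib]
        refine Finset.sum_congr rfl fun σ _ => by ring
    _ = Real.exp c := by
        rw [← Zp_eq, ← Zp_eq, div_self hA.ne', div_self hB.ne', mul_one, mul_one, hab, mul_one]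

theorem convexOn_press {β : ℝ} (hβ : 0 ≤ β) : ConvexOn ℝ Set.univ (press n J β) := by
  have h := (convexOn_log_Zp (n := n) J β).smul
    (c := (β * (Fintype.card X : ℝ))⁻¹) (by positivity)
  refine h.congr fun h _ => ?_
  simp [press, div_eq_inv_mul]

omit [DecidableEq X] in
theorem mval_eq (σ : X → Fin (n + 1)) :
    mval n σ = Fintype.card X * spinVal n - ∑ x, ((n : ℝ) - (σ x : ℕ)) := by
  rw [← nsmul_eq_mul, ← Finset.card_univ, ← Finset.sum_const, ← Finset.sum_sub_distrib]
  refine Finset.sum_congr rfl fun x _ => ?_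
  simp only [levelM, spinVal]; ring

/-- crude finite-volume bound on the magnon density at large field. -/
theorem ev_num_le_exp {β : ℝ} (hβ : 0 ≤ β) : ∃ C : ℝ, 0 ≤ C ∧ ∀ h : ℝ, 0 ≤ h → ∀ x : X,
    ev n J β h (num n x) ≤ C * Real.exp (-(β * h)) := by
  set top : X → Fin (n + 1) := fun _ => Fin.last n with htop
  have hw := W_diag_pos (n := n) J 0 β
  have hZ0 : 0 ≤ ∑ σ, (W n J 0 β σ σ).re := Finset.sum_nonneg fun σ _ => (hw σ).le
  refine ⟨n * (∑ σ, (W n J 0 β σ σ).re) / (W n J 0 β top top).re,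
    div_nonneg (mul_nonneg (Nat.cast_nonneg _) hZ0) (hw top).le, fun h hh x => ?_⟩
  set M : ℝ := Fintype.card X * spinVal n with hM
  have hβh := mul_nonneg hβ hh
  have hZ : (W n J 0 β top top).re * Real.exp (β * h * M) ≤ Zp n J β h := by
    have e : mval n top = M := by rw [mval_eq]; simp [htop, hM]
    rw [Zp_eq, ← e]
    exact Finset.single_le_sum (f := fun σ => (W n J 0 β σ σ).re * Real.exp (β * h * mval n σ))
      (fun σ _ => mul_nonneg (hw σ).le (Real.exp_pos _).le) (Finset.mem_univ top)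
  have hterm : ∀ σ : X → Fin (n + 1), ((n : ℝ) - (σ x : ℕ)) *
      ((W n J 0 β σ σ).re * Real.exp (β * h * mval n σ)) ≤
      n * ((W n J 0 β σ σ).re * (Real.exp (β * h * M) * Real.exp (-(β * h)))) := fun σ => by
    rcases (Nat.le_of_lt_succ (σ x).2).eq_or_lt with h0 | h0
    · rw [h0, sub_self, zero_mul]
      have := hw σ
      positivity
    · have h1 : ((σ x : ℕ) : ℝ) + 1 ≤ n := by exact_mod_cast h0
      have h2 : (n : ℝ) - (σ x : ℕ) ≤ ∑ y, ((n : ℝ) - (σ y : ℕ)) :=
        Finset.single_le_sum (f := fun y => (n : ℝ) - (σ y : ℕ))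
          (fun y _ => sub_nonneg.2 (lev_le σ y)) (Finset.mem_univ x)
      have h3 : mval n σ ≤ M - 1 := by rw [mval_eq]; linarith
      refine mul_le_mul (by simp) (mul_le_mul_of_nonneg_left ?_ (hw σ).le)
        (mul_nonneg (hw σ).le (Real.exp_pos _).le) (Nat.cast_nonneg _)
      rw [← Real.exp_add]
      exact Real.exp_le_exp.2 (by nlinarith)
  rw [num_eq, ev_diagonal, div_le_iff₀ (Zp_pos J β h)]
  refine (Finset.sum_le_sum fun σ _ => hterm σ).trans ?_
  rw [← Finset.mul_sum, ← Finset.sum_mul]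
  refine le_trans (le_of_eq ?_) (mul_le_mul_of_nonneg_left hZ
    (mul_nonneg (div_nonneg (mul_nonneg (Nat.cast_nonneg _) hZ0) (hw top).le) (Real.exp_pos _).le))
  have := (hw top).ne'
  field_simp

end field

end Crest.Agent.N337
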