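import Crest.Agent.N337.BasicH
import Crest.Agent.N337.MomR

/-!
# Row 337: the moment inequalities `MomStmt`
-/

set_option autoImplicit false

namespace Crest.Agent.N337

open Matrix

variable {m : Type} [Fintype m] [DecidableEq m]

theorem exists_unitary_diag {H : Matrix m m ℂ} (hH : H.IsHermitian) :
    ∃ (U : Matrix m m ℂ) (l : m → ℝ), Uᴴ * U = 1 ∧ U * Uᴴ = 1 ∧
      Uᴴ * H * U = diagonal fun i => ((l i : ℝ) : ℂ) := by
  have h1 : (hH.eigenvectorUnitary : Matrix m m ℂ)ᴴ * hH.eigenvectorUnitary = 1 :=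
    Unitary.coe_star_mul_self hH.eigenvectorUnitary
  have h2 : (hH.eigenvectorUnitary : Matrix m m ℂ) * (hH.eigenvectorUnitary : Matrix m m ℂ)ᴴ = 1 :=
    Unitary.coe_mul_star_self hH.eigenvectorUnitary
  refine ⟨(hH.eigenvectorUnitary : Matrix m m ℂ), hH.eigenvalues, h1, h2, ?_⟩
  have h := hH.spectral_theorem
  rw [Unitary.conjStarAlgAut_apply] at h
  have h3 : H = (hH.eigenvectorUnitary : Matrix m m ℂ) *
      diagonal (fun i => ((hH.eigenvalues i : ℝ) : ℂ)) *
        (hH.eigenvectorUnitary : Matrix m m ℂ)ᴴ := h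
  generalize (hH.eigenvectorUnitary : Matrix m m ℂ) = U at h1 h2 h3
  generalize hH.eigenvalues = l at h3
  rw [h3, ← Matrix.mul_assoc, ← Matrix.mul_assoc, h1, Matrix.one_mul, Matrix.mul_assoc, h1,
    Matrix.mul_one]

section conj
variable {U : Matrix m m ℂ} (h1 : Uᴴ * U = 1) (h2 : U * Uᴴ = 1)
include h2

theorem conj_mul (A B : Matrix m m ℂ) : Uᴴ * A * U * (Uᴴ * B * U) = Uᴴ * (A * B) * U := by
  calc _ = Uᴴ * A * (U * Uᴴ) * B * U := by simp only [Matrix.mul_assoc]
    _ = _ := by rw [h2, Matrix.mul_one]; simp only [Matrix.mul_assoc]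

theorem conj_trace (A : Matrix m m ℂ) : (Uᴴ * A * U).trace = A.trace := by
  rw [Matrix.trace_mul_comm, ← Matrix.mul_assoc, h2, Matrix.one_mul]

include h1
theorem gW_conj (H : Matrix m m ℂ) (t : ℝ) : gW (Uᴴ * H * U) t = Uᴴ * gW H t * U := by
  have hU : IsUnit U := ⟨⟨U, Uᴴ, h2, h1⟩, rfl⟩
  have hinv : U⁻¹ = Uᴴ := Matrix.inv_eq_right_inv h2
  unfold gW
  rw [← hinv, ← Matrix.exp_conj' _ _ hU, Matrix.mul_smul, Matrix.smul_mul]

theorem gev_conj (H A : Matrix m m ℂ) (β : ℝ) :
    gev (Uᴴ * H * U) β (Uᴴ * A * U) = gev H β A := by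
  simp only [gev, gW_conj h1 h2, conj_mul h2, conj_trace h2]

theorem gduh_conj (H A B : Matrix m m ℂ) (β : ℝ) :
    gduh (Uᴴ * H * U) β (Uᴴ * A * U) (Uᴴ * B * U) = gduh H β A B := by
  simp only [gduh, gW_conj h1 h2, conj_mul h2, conj_trace h2]

end conj

theorem gW_diagonal (l : m → ℝ) (t : ℝ) : gW (diagonal fun i => ((l i : ℝ) : ℂ)) t =
    diagonal fun i => ((Real.exp (-(t * l i)) : ℝ) : ℂ) := by
  unfold gW
  rw [← Matrix.diagonal_smul, Matrix.exp_diagonal]
  congr 1; funext i
  rw [Pi.coe_exp, ← Complex.exp_eq_exp_ℂ, Complex.ofReal_exp]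
  congr 1; simp

theorem star_mul_self_re (z : ℂ) (a : ℝ) : (star z * (z * (a : ℂ))).re = Complex.normSq z * a := by
  rw [← mul_assoc, Complex.re_mul_ofReal, Complex.normSq_apply]
  simp

theorem mom_diag [Nonempty m] (l : m → ℝ) (B : Matrix m m ℂ) (β : ℝ) :
    ∃ q w : m × m → ℝ, (∀ p, 0 ≤ q p) ∧
      let H : Matrix m m ℂ := diagonal fun i => ((l i : ℝ) : ℂ)
      gev H β (Bᴴ * B) = ∑ p, q p ∧ gev H β (B * Bᴴ) = ∑ p, q p * Real.exp (β * w p) ∧
      gduh H β B Bᴴ = ∑ p, q p * kap β (w p) ∧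
      gev H β (Bᴴ * (B * H - H * B)) = ∑ p, q p * w p ∧
      gev H β ((B * H - H * B) * Bᴴ) = ∑ p, q p * Real.exp (β * w p) * w p := by
  set H : Matrix m m ℂ := diagonal fun i => ((l i : ℝ) : ℂ) with hH
  have hherm : H.IsHermitian := by
    unfold Matrix.IsHermitian
    rw [hH, Matrix.diagonal_conjTranspose]; congr 1; funext i; simp
  set Z := (gW H β).trace.re with hZ
  have hZ0 : 0 < Z := gZ_pos hherm β
  have hC : ∀ i j, (B * H - H * B) i j = B i j * ((l j - l i : ℝ) : ℂ) := fun i j => by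
    simp only [hH, Matrix.sub_apply, Matrix.mul_diagonal, Matrix.diagonal_mul]
    push_cast; ring
  have hev : ∀ A : Matrix m m ℂ, gev H β A = (∑ i, (A i i).re * Real.exp (-(β * l i))) / Z :=
    fun A => by
      unfold gev
      rw [← hZ, hH, gW_diagonal]
      simp only [Matrix.trace, Matrix.diag_apply, Matrix.mul_diagonal, Complex.re_sum,
        Complex.re_mul_ofReal]
  have hns : ∀ z : ℂ, (star z * z).re = Complex.normSq z := fun z => by
    simpa using star_mul_self_re z 1
  have hx : ∀ i j, Real.exp (-(β * l i)) = Real.exp (-(β * l j)) * Real.exp (β * (l j - l i)) :=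
    fun i j => by rw [← Real.exp_add]; congr 1; ring
  refine ⟨fun p => Complex.normSq (B p.1 p.2) * Real.exp (-(β * l p.2)) / Z,
    fun p => l p.2 - l p.1, fun p => div_nonneg (mul_nonneg (Complex.normSq_nonneg _)
      (Real.exp_pos _).le) hZ0.le, ?_, ?_, ?_, ?_, ?_⟩
  · rw [hev, Fintype.sum_prod_type_right, Finset.sum_div]
    refine Finset.sum_congr rfl fun j _ => ?_
    simp only [Matrix.mul_apply, Matrix.conjTranspose_apply, Complex.re_sum, hns, Finset.sum_mul,
      Finset.sum_div]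
  · rw [hev, Fintype.sum_prod_type, Finset.sum_div]
    refine Finset.sum_congr rfl fun i _ => ?_
    simp only [Matrix.mul_apply, Matrix.conjTranspose_apply, Complex.re_sum, Finset.sum_mul,
      Finset.sum_div]
    refine Finset.sum_congr rfl fun j _ => ?_
    rw [mul_comm (B i j), hns, hx i j]; ring
  · rw [gduh_comm]
    unfold gduh
    have : ∀ τ : ℝ, (Bᴴ * gW H τ * B * gW H (β - τ)).trace.re = ∑ p : m × m,
        Complex.normSq (B p.1 p.2) * Real.exp (-(β * l p.2)) * Real.exp (τ * (l p.2 - l p.1)) :=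
      fun τ => by
        rw [hH, gW_diagonal, gW_diagonal, Fintype.sum_prod_type_right]
        simp only [Matrix.trace, Matrix.diag_apply, Matrix.mul_diagonal, Complex.re_sum,
          Complex.re_mul_ofReal]
        refine Finset.sum_congr rfl fun j _ => ?_
        rw [Matrix.mul_apply, Complex.re_sum, Finset.sum_mul]
        refine Finset.sum_congr rfl fun i _ => ?_
        rw [Matrix.mul_diagonal, Matrix.conjTranspose_apply, mul_assoc, mul_comm _ (B i j),
          star_mul_self_re, mul_assoc, mul_assoc, ← Real.exp_add, ← Real.exp_add]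
        congr 2; ring
    simp only [this]
    rw [intervalIntegral.integral_finsetSum fun p _ =>
      Continuous.intervalIntegrable (by fun_prop) _ _, ← hZ, Finset.sum_div]
    refine Finset.sum_congr rfl fun p _ => ?_
    rw [intervalIntegral.integral_const_mul, kap]; ring
  · rw [hev, Fintype.sum_prod_type_right, Finset.sum_div]
    refine Finset.sum_congr rfl fun j _ => ?_
    rw [Matrix.mul_apply, Complex.re_sum, Finset.sum_mul, Finset.sum_div]
    refine Finset.sum_congr rfl fun i _ => ?_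
    rw [Matrix.conjTranspose_apply, hC, star_mul_self_re]; ring
  · rw [hev, Fintype.sum_prod_type, Finset.sum_div]
    refine Finset.sum_congr rfl fun i _ => ?_
    rw [Matrix.mul_apply, Complex.re_sum, Finset.sum_mul, Finset.sum_div]
    refine Finset.sum_congr rfl fun j _ => ?_
    rw [Matrix.conjTranspose_apply, hC, mul_comm _ (star (B i j)), star_mul_self_re, hx i j]
    ring

/-- **(M)** the moment inequalities. -/
theorem momStmt : MomStmt := by
  intro m _ _ _ H B β hH hβ
  obtain ⟨U, l, h1, h2, h3⟩ := exists_unitary_diag hH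
  obtain ⟨q, w, hq, e1, e2, e3, e4, e5⟩ := mom_diag l (Uᴴ * B * U) β
  have hct : (Uᴴ * B * U)ᴴ = Uᴴ * Bᴴ * U := by
    simp only [Matrix.conjTranspose_mul, Matrix.conjTranspose_conjTranspose, Matrix.mul_assoc]
  have hsub : ∀ A A' : Matrix m m ℂ, Uᴴ * A * U - Uᴴ * A' * U = Uᴴ * (A - A') * U := fun A A' => by
    rw [Matrix.mul_sub, Matrix.sub_mul]
  simp only [← h3, hct, conj_mul h2, hsub, gev_conj h1 h2, gduh_conj h1 h2] at e1 e2 e3 e4 e5
  exact mom_real hq hβ e1 e2 e3 e4 (by rw [gev_sub, e5])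

end Crest.Agent.N337
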