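import Crest.Agent.N337.FV.Mode
import Crest.Agent.N337.FV.High
import Crest.Agent.N337.FV.KVG
import Crest.Agent.N337.FV.Boot
import Crest.Agent.N337.FV.Sharp
import Crest.Agent.N337.KV.Done
import Crest.Agent.N337.LY.Newton
import Crest.Agent.N337.Geo.Main
import Crest.Agent.N337.Th.Sand

/-!
# Row 337: assembly of the unconditional statements (helper35)
-/

set_option autoImplicit false

namespace Crest.Agent.N337.All

theorem newton : NewtonStmt := newton_of Slot.slot KV.lim
theorem high : FV.HighStmt := FV.high FV.mode newton
theorem kvg : FV.KVGStmt := FV.kvg FV.mode KV.kvStmt geo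
theorem boot : FV.BootStmt := FV.boot FV.mode high kvg
theorem finVol : FinVolStmt := FV.finVol FV.mode high boot newton
theorem sand : SandStmt := Crest.Agent.N337.sand finVol

end Crest.Agent.N337.All
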