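import Crest.Agent.N337.Defs

/-!
# Row 337, basics I: entrywise positivity and abstract Gibbs / Duhamel functionals
-/

set_option autoImplicit false

namespace Crest.Agent.N337

open Filter Topology Matrix

section pos
variable {m : Type}

theorem pos_zero : Pos (0 : Matrix m m ℂ) := fun _ _ => by simp

theorem Pos.add {A B : Matrix m m ℂ} (hA : Pos A) (hB : Pos B) : Pos (A + B) := fun i j => by
  simp only [Matrix.add_apply, Complex.add_im, Complex.add_re, (hA i j).1, (hB i j).1]
  exact ⟨by simp, add_nonneg (hA i j).2 (hB i j).2⟩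

theorem Pos.smul {A : Matrix m m ℂ} (hA : Pos A) {c : ℝ} (hc : 0 ≤ c) : Pos ((c : ℂ) • A) :=
  fun i j => by
    simp only [Matrix.smul_apply, smul_eq_mul, Complex.mul_im, Complex.mul_re, Complex.ofReal_re,
      Complex.ofReal_im, (hA i j).1]
    exact ⟨by simp, by simpa using mul_nonneg hc (hA i j).2⟩

theorem Pos.sum {ι : Type*} (s : Finset ι) {f : ι → Matrix m m ℂ} (h : ∀ i ∈ s, Pos (f i)) :
    Pos (∑ i ∈ s, f i) :=
  Finset.sum_induction f Pos (fun _ _ => Pos.add) pos_zero h

theorem Pos.transpose {A : Matrix m m ℂ} (hA : Pos A) : Pos Aᵀ := fun i j => hA j i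

theorem Pos.conjTranspose_eq {A : Matrix m m ℂ} (hA : Pos A) : Aᴴ = Aᵀ := by
  ext i j
  simp only [Matrix.conjTranspose_apply, Matrix.transpose_apply]
  exact Complex.conj_eq_iff_im.2 (hA j i).1

theorem Pos.conjTranspose {A : Matrix m m ℂ} (hA : Pos A) : Pos Aᴴ := by
  rw [hA.conjTranspose_eq]; exact hA.transpose

theorem pos_diagonal [DecidableEq m] {d : m → ℝ} (hd : ∀ i, 0 ≤ d i) :
    Pos (diagonal fun i => ((d i : ℝ) : ℂ)) := fun i j => by
  by_cases h : i = j
  · subst h; simp [hd]
  · simp [h]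

theorem pos_one [DecidableEq m] : Pos (1 : Matrix m m ℂ) := fun i j => by
  by_cases h : i = j
  · subst h; simp
  · simp [h]

variable [Fintype m]

theorem Pos.mul {A B : Matrix m m ℂ} (hA : Pos A) (hB : Pos B) : Pos (A * B) := fun i j => by
  simp only [Matrix.mul_apply, Complex.im_sum, Complex.re_sum, Complex.mul_im, Complex.mul_re,
    (hA i _).1, (hB _ j).1]
  exact ⟨by simp, Finset.sum_nonneg fun k _ => by simpa using mul_nonneg (hA i k).2 (hB k j).2⟩

theorem Pos.trace_re_nonneg {A : Matrix m m ℂ} (hA : Pos A) : 0 ≤ A.trace.re := by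
  simp only [Matrix.trace, Matrix.diag, Complex.re_sum]
  exact Finset.sum_nonneg fun k _ => (hA k k).2

variable [DecidableEq m]

theorem Pos.pow {A : Matrix m m ℂ} (hA : Pos A) (k : ℕ) : Pos (A ^ k) := by
  induction k with
  | zero => simpa using pos_one
  | succ k ih => rw [pow_succ]; exact ih.mul hA

theorem Pos.list_prod (l : List (Matrix m m ℂ)) (h : ∀ A ∈ l, Pos A) : Pos l.prod := by
  induction l with
  | nil => simpa using pos_one
  | cons A l ih =>
    rw [List.prod_cons]
    exact (h A (by simp)).mul (ih fun B hB => h B (by simp [hB]))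

omit [Fintype m] [DecidableEq m] in
theorem isClosed_pos : IsClosed {A : Matrix m m ℂ | Pos A} := by
  have : {A : Matrix m m ℂ | Pos A} =
      ⋂ i, ⋂ j, ({A : Matrix m m ℂ | (A i j).im = 0} ∩ {A | 0 ≤ (A i j).re}) := by
    ext A; simp [Pos]
  rw [this]
  refine isClosed_iInter fun i => isClosed_iInter fun j => IsClosed.inter ?_ ?_
  · exact isClosed_eq (by fun_prop) continuous_const
  · exact isClosed_le continuous_const (by fun_prop)

theorem Pos.exp {A : Matrix m m ℂ} (hA : Pos A) : Pos (NormedSpace.exp A) := by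
  open scoped Matrix.Norms.Operator in
  have hs := NormedSpace.exp_series_hasSum_exp' (𝕂 := ℝ) A
  refine isClosed_pos.mem_of_tendsto hs (Eventually.of_forall fun s => ?_)
  refine Pos.sum s fun k _ => ?_
  have : ((k.factorial : ℝ)⁻¹) • A ^ k = (((k.factorial : ℝ)⁻¹ : ℝ) : ℂ) • A ^ k := rfl
  rw [this]
  exact (hA.pow k).smul (by positivity)

theorem exp_smul_one (c : ℝ) :
    NormedSpace.exp ((c : ℂ) • (1 : Matrix m m ℂ)) = ((Real.exp c : ℝ) : ℂ) • 1 := by
  have e : (c : ℂ) • (1 : Matrix m m ℂ) = diagonal fun _ => (c : ℂ) := by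
    ext i j; by_cases h : i = j <;> simp [h]
  rw [e, Matrix.exp_diagonal]
  ext i j
  by_cases h : i = j
  · subst h; simp [Pi.coe_exp, ← Complex.exp_eq_exp_ℂ]
  · simp [h]

/-- a real matrix with nonnegative off-diagonal entries has a nonnegative exponential. -/
theorem pos_exp_of_offdiag {A : Matrix m m ℂ} (him : ∀ i j, (A i j).im = 0)
    (hoff : ∀ i j, i ≠ j → 0 ≤ (A i j).re) : Pos (NormedSpace.exp A) := by
  set c : ℝ := ∑ i, |(A i i).re| with hc
  have hp : Pos (A + (c : ℂ) • 1) := fun i j => by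
    by_cases h : i = j
    · subst h
      have h1 : |(A i i).re| ≤ c :=
        Finset.single_le_sum (f := fun i => |(A i i).re|) (fun _ _ => abs_nonneg _)
          (Finset.mem_univ i)
      have h2 := neg_abs_le (A i i).re
      simp only [Matrix.add_apply, Matrix.smul_apply, Matrix.one_apply_eq, smul_eq_mul, mul_one,
        Complex.add_im, Complex.add_re, him, Complex.ofReal_im, Complex.ofReal_re]
      exact ⟨by simp, by linarith⟩
    · simpa [h, him] using hoff i j h
  have e : A = (A + (c : ℂ) • 1) + ((-c : ℝ) : ℂ) • 1 := by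
    push_cast; rw [neg_smul]; abel
  rw [e, Matrix.exp_add_of_commute, exp_smul_one]
  · exact hp.exp.mul (pos_one.smul (Real.exp_pos _).le)
  · exact (Commute.one_right _).smul_right _

end pos

section gW
variable {m : Type} [Fintype m] [DecidableEq m]

theorem gW_zero (H : Matrix m m ℂ) : gW H 0 = 1 := by simp [gW]

theorem gW_add (H : Matrix m m ℂ) (s t : ℝ) : gW H (s + t) = gW H s * gW H t := by
  unfold gW
  rw [← Matrix.exp_add_of_commute]
  · congr 1; push_cast; rw [neg_add, add_smul]
  · exact ((Commute.refl H).smul_left _).smul_right _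

theorem gW_herm {H : Matrix m m ℂ} (hH : H.IsHermitian) (t : ℝ) : (gW H t).IsHermitian := by
  unfold gW
  refine Matrix.IsHermitian.exp ?_
  unfold Matrix.IsHermitian
  rw [Matrix.conjTranspose_smul, hH.eq]
  simp

theorem gW_transpose {H : Matrix m m ℂ} (hH : Hᵀ = H) (t : ℝ) : (gW H t)ᵀ = gW H t := by
  unfold gW
  rw [← Matrix.exp_transpose, Matrix.transpose_smul, hH]

theorem gW_commute {H A : Matrix m m ℂ} (h : Commute A H) (t : ℝ) : Commute A (gW H t) :=
  (h.smul_right _).exp_right

theorem hasDerivAt_gW_apply (H : Matrix m m ℂ) (t : ℝ) (i j : m) :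
    HasDerivAt (fun s => gW H s i j) ((-(gW H t * H)) i j) t := by
  open scoped Matrix.Norms.Operator in
  have h1 := hasDerivAt_exp_smul_const (𝕂 := ℝ) (-H) t
  have e : ∀ s : ℝ, gW H s = NormedSpace.exp (s • (-H)) := fun s => by
    unfold gW; congr 1
    rw [neg_smul, smul_neg]; rfl
  open scoped Matrix.Norms.Operator in
  let L : Matrix m m ℂ →L[ℝ] ℂ :=
    LinearMap.toContinuousLinearMap ((Matrix.entryLinearMap ℝ ℂ i j))
  have h2 := L.hasFDerivAt.comp_hasDerivAt t h1
  simp only [e]
  rw [← Matrix.mul_neg]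
  exact h2

theorem continuous_gW (H : Matrix m m ℂ) : Continuous (gW H) :=
  continuous_matrix fun i j =>
    continuous_iff_continuousAt.2 fun t => (hasDerivAt_gW_apply H t i j).continuousAt

open scoped ComplexOrder in
theorem gW_posSemidef {H : Matrix m m ℂ} (hH : H.IsHermitian) (t : ℝ) :
    (gW H t).PosSemidef := by
  have e : gW H t = (gW H (t / 2))ᴴ * gW H (t / 2) := by
    rw [(gW_herm hH _).eq, ← gW_add]; congr 1; ring
  rw [e]; exact Matrix.posSemidef_conjTranspose_mul_self _

theorem gW_diag_pos {H : Matrix m m ℂ} (hH : H.IsHermitian) (t : ℝ) (i : m) :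
    (gW H t i i).im = 0 ∧ 0 < (gW H t i i).re := by
  have e : gW H t = (gW H (t / 2))ᴴ * gW H (t / 2) := by
    rw [(gW_herm hH _).eq, ← gW_add]; congr 1; ring
  have e2 : gW H t i i = ((∑ k, Complex.normSq (gW H (t / 2) k i) : ℝ) : ℂ) := by
    rw [e, Matrix.mul_apply]; push_cast
    refine Finset.sum_congr rfl fun k _ => ?_
    rw [Matrix.conjTranspose_apply, Complex.normSq_eq_conj_mul_self]; rfl
  rw [e2, Complex.ofReal_im, Complex.ofReal_re]
  refine ⟨rfl, ?_⟩
  by_contra hneg
  have h0 : ∑ k, Complex.normSq (gW H (t / 2) k i) = 0 :=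
    le_antisymm (not_lt.1 hneg) (Finset.sum_nonneg fun _ _ => Complex.normSq_nonneg _)
  rw [Finset.sum_eq_zero_iff_of_nonneg fun _ _ => Complex.normSq_nonneg _] at h0
  have h1 : (gW H (-(t / 2)) * gW H (t / 2)) i i = 0 := by
    rw [Matrix.mul_apply]
    refine Finset.sum_eq_zero fun k _ => ?_
    rw [Complex.normSq_eq_zero.1 (h0 k (Finset.mem_univ k)), mul_zero]
  rw [← gW_add, neg_add_cancel, gW_zero] at h1
  simp at h1

theorem gZ_pos [Nonempty m] {H : Matrix m m ℂ} (hH : H.IsHermitian) (t : ℝ) :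
    0 < (gW H t).trace.re := by
  simp only [Matrix.trace, Matrix.diag, Complex.re_sum]
  exact Finset.sum_pos (fun i _ => (gW_diag_pos hH t i).2) Finset.univ_nonempty

theorem gZ_nonneg {H : Matrix m m ℂ} (hH : H.IsHermitian) (t : ℝ) :
    0 ≤ (gW H t).trace.re := by
  simp only [Matrix.trace, Matrix.diag, Complex.re_sum]
  exact Finset.sum_nonneg fun i _ => (gW_diag_pos hH t i).2.le

end gW

end Crest.Agent.N337
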