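import Crest.Agent.N337.BasicG

/-!
# Row 337, basics II: abstract Gibbs expectation `gev` and Duhamel function `gduh`
-/

set_option autoImplicit false

namespace Crest.Agent.N337

open Filter Topology Matrix

variable {m : Type} [Fintype m] [DecidableEq m]

/-! ### linearity -/

theorem gev_zero (H : Matrix m m ℂ) (β : ℝ) : gev H β 0 = 0 := by simp [gev]

theorem gev_add (H : Matrix m m ℂ) (β : ℝ) (A B : Matrix m m ℂ) :
    gev H β (A + B) = gev H β A + gev H β B := by
  simp [gev, Matrix.add_mul, add_div]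

theorem gev_neg (H : Matrix m m ℂ) (β : ℝ) (A : Matrix m m ℂ) : gev H β (-A) = -gev H β A := by
  simp [gev, neg_div]

theorem gev_sub (H : Matrix m m ℂ) (β : ℝ) (A B : Matrix m m ℂ) :
    gev H β (A - B) = gev H β A - gev H β B := by
  rw [sub_eq_add_neg, gev_add, gev_neg]; ring

theorem gev_smul (H : Matrix m m ℂ) (β c : ℝ) (A : Matrix m m ℂ) :
    gev H β ((c : ℂ) • A) = c * gev H β A := by
  simp [gev, mul_div_assoc]

theorem gev_sum {ι : Type*} (H : Matrix m m ℂ) (β : ℝ) (s : Finset ι) (f : ι → Matrix m m ℂ) :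
    gev H β (∑ i ∈ s, f i) = ∑ i ∈ s, gev H β (f i) := by
  simp [gev, Finset.sum_mul, Matrix.trace_sum, Finset.sum_div]

theorem gev_one [Nonempty m] {H : Matrix m m ℂ} (hH : H.IsHermitian) (β : ℝ) : gev H β 1 = 1 := by
  rw [gev, Matrix.one_mul, div_self (gZ_pos hH β).ne']

theorem continuous_duhInt (H : Matrix m m ℂ) (β : ℝ) (A B : Matrix m m ℂ) :
    Continuous fun τ : ℝ => (A * gW H τ * B * gW H (β - τ)).trace.re := by
  have h1 := continuous_gW H
  have h2 : Continuous fun τ : ℝ => gW H (β - τ) := h1.comp (by fun_prop)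
  exact Complex.continuous_re.comp
    ((((continuous_const.matrix_mul h1).matrix_mul continuous_const).matrix_mul h2).matrix_trace)

theorem gduh_add_left (H : Matrix m m ℂ) (β : ℝ) (A A' B : Matrix m m ℂ) :
    gduh H β (A + A') B = gduh H β A B + gduh H β A' B := by
  unfold gduh
  rw [← add_div, ← intervalIntegral.integral_add
    ((continuous_duhInt H β A B).intervalIntegrable _ _)
    ((continuous_duhInt H β A' B).intervalIntegrable _ _)]
  simp [Matrix.add_mul]

theorem gduh_add_right (H : Matrix m m ℂ) (β : ℝ) (A B B' : Matrix m m ℂ) :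
    gduh H β A (B + B') = gduh H β A B + gduh H β A B' := by
  unfold gduh
  rw [← add_div, ← intervalIntegral.integral_add
    ((continuous_duhInt H β A B).intervalIntegrable _ _)
    ((continuous_duhInt H β A B').intervalIntegrable _ _)]
  simp [Matrix.add_mul, Matrix.mul_add]

theorem gduh_smul_left (H : Matrix m m ℂ) (β c : ℝ) (A B : Matrix m m ℂ) :
    gduh H β ((c : ℂ) • A) B = c * gduh H β A B := by
  unfold gduh
  rw [← mul_div_assoc, ← intervalIntegral.integral_const_mul]
  simp

theorem gduh_smul_right (H : Matrix m m ℂ) (β c : ℝ) (A B : Matrix m m ℂ) :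
    gduh H β A ((c : ℂ) • B) = c * gduh H β A B := by
  unfold gduh
  rw [← mul_div_assoc, ← intervalIntegral.integral_const_mul]
  simp

theorem gduh_zero_left (H : Matrix m m ℂ) (β : ℝ) (B : Matrix m m ℂ) : gduh H β 0 B = 0 := by
  simp [gduh]

theorem gduh_zero_right (H : Matrix m m ℂ) (β : ℝ) (A : Matrix m m ℂ) : gduh H β A 0 = 0 := by
  simp [gduh]

theorem gduh_neg_left (H : Matrix m m ℂ) (β : ℝ) (A B : Matrix m m ℂ) :
    gduh H β (-A) B = -gduh H β A B := by
  have := gduh_smul_left H β (-1) A B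
  simpa using this

theorem gduh_neg_right (H : Matrix m m ℂ) (β : ℝ) (A B : Matrix m m ℂ) :
    gduh H β A (-B) = -gduh H β A B := by
  have := gduh_smul_right H β (-1) A B
  simpa using this

theorem gduh_sub_left (H : Matrix m m ℂ) (β : ℝ) (A A' B : Matrix m m ℂ) :
    gduh H β (A - A') B = gduh H β A B - gduh H β A' B := by
  rw [sub_eq_add_neg, gduh_add_left, gduh_neg_left]; ring

theorem gduh_sub_right (H : Matrix m m ℂ) (β : ℝ) (A B B' : Matrix m m ℂ) :
    gduh H β A (B - B') = gduh H β A B - gduh H β A B' := by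
  rw [sub_eq_add_neg, gduh_add_right, gduh_neg_right]; ring

theorem gduh_sum_left {ι : Type*} (H : Matrix m m ℂ) (β : ℝ) (s : Finset ι)
    (f : ι → Matrix m m ℂ) (B : Matrix m m ℂ) :
    gduh H β (∑ i ∈ s, f i) B = ∑ i ∈ s, gduh H β (f i) B := by
  classical
  induction s using Finset.induction_on with
  | empty => simp [gduh_zero_left]
  | insert a s ha ih => rw [Finset.sum_insert ha, Finset.sum_insert ha, gduh_add_left, ih]

theorem gduh_sum_right {ι : Type*} (H : Matrix m m ℂ) (β : ℝ) (A : Matrix m m ℂ) (s : Finset ι)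
    (f : ι → Matrix m m ℂ) :
    gduh H β A (∑ i ∈ s, f i) = ∑ i ∈ s, gduh H β A (f i) := by
  classical
  induction s using Finset.induction_on with
  | empty => simp [gduh_zero_right]
  | insert a s ha ih => rw [Finset.sum_insert ha, Finset.sum_insert ha, gduh_add_right, ih]

/-! ### symmetries -/

theorem gev_conjTranspose {H : Matrix m m ℂ} (hH : H.IsHermitian) (β : ℝ) (A : Matrix m m ℂ) :
    gev H β Aᴴ = gev H β A := by
  unfold gev
  have : (Aᴴ * gW H β).trace = star (A * gW H β).trace := by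
    rw [← Matrix.trace_conjTranspose, Matrix.conjTranspose_mul, (gW_herm hH β).eq,
      Matrix.trace_mul_comm]
  rw [this]; simp

theorem gev_transpose {H : Matrix m m ℂ} (hH : Hᵀ = H) (β : ℝ) (A : Matrix m m ℂ) :
    gev H β Aᵀ = gev H β A := by
  unfold gev
  rw [← Matrix.trace_transpose (A * gW H β), Matrix.transpose_mul, gW_transpose hH,
    Matrix.trace_mul_comm]

/-- an operator commuting with `H` may be moved cyclically. -/
theorem gev_mul_comm {H M : Matrix m m ℂ} (hM : Commute M H) (β : ℝ) (A : Matrix m m ℂ) :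
    gev H β (A * M) = gev H β (M * A) := by
  unfold gev
  rw [Matrix.mul_assoc, (gW_commute hM β).eq, ← Matrix.mul_assoc, Matrix.trace_mul_comm,
    ← Matrix.mul_assoc]

theorem gduh_comm (H : Matrix m m ℂ) (β : ℝ) (A B : Matrix m m ℂ) :
    gduh H β A B = gduh H β B A := by
  unfold gduh
  have := intervalIntegral.integral_comp_sub_left
    (fun τ : ℝ => (A * gW H τ * B * gW H (β - τ)).trace.re) (a := 0) (b := β) β
  simp only [sub_self, sub_zero, sub_sub_cancel] at this
  rw [← this]
  congr 2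
  funext τ
  rw [Matrix.mul_assoc (A * gW H (β - τ)), Matrix.trace_mul_comm, Matrix.mul_assoc (B * gW H τ)]

theorem gduh_conjTranspose {H : Matrix m m ℂ} (hH : H.IsHermitian) (β : ℝ) (A B : Matrix m m ℂ) :
    gduh H β Aᴴ Bᴴ = gduh H β A B := by
  rw [gduh_comm]
  unfold gduh
  congr 2
  funext τ
  have : (Bᴴ * gW H τ * Aᴴ * gW H (β - τ)).trace =
      star (A * gW H τ * B * gW H (β - τ)).trace := by
    rw [← Matrix.trace_conjTranspose]
    simp only [Matrix.conjTranspose_mul, (gW_herm hH _).eq]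
    rw [Matrix.trace_mul_comm (gW H (β - τ))]
    simp only [Matrix.mul_assoc]
  rw [this]; simp

theorem gduh_transpose {H : Matrix m m ℂ} (hH : Hᵀ = H) (β : ℝ) (A B : Matrix m m ℂ) :
    gduh H β Aᵀ Bᵀ = gduh H β A B := by
  rw [gduh_comm]
  unfold gduh
  congr 2
  funext τ
  rw [← Matrix.trace_transpose (A * gW H τ * B * gW H (β - τ))]
  simp only [Matrix.transpose_mul, gW_transpose hH]
  rw [Matrix.trace_mul_comm (gW H (β - τ))]
  simp only [Matrix.mul_assoc]

/-- if `B` commutes with `H` the Duhamel function is `β` times the expectation. -/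
theorem gduh_of_commute {H B : Matrix m m ℂ} (hB : Commute B H) (β : ℝ) (A : Matrix m m ℂ) :
    gduh H β A B = β * gev H β (A * B) := by
  unfold gduh gev
  have : ∀ τ : ℝ, A * gW H τ * B * gW H (β - τ) = A * B * gW H β := fun τ => by
    rw [Matrix.mul_assoc A, ← (gW_commute hB τ).eq, ← Matrix.mul_assoc, Matrix.mul_assoc (A * B),
      ← gW_add]
    congr 2; ring
  simp only [this, intervalIntegral.integral_const, sub_zero, smul_eq_mul, mul_div_assoc]

theorem hasDerivAt_gW (H : Matrix m m ℂ) (t : ℝ) :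
    HasDerivAt (gW H) (-(gW H t * H)) t :=
  hasDerivAt_pi.2 fun i => hasDerivAt_pi.2 fun j => hasDerivAt_gW_apply H t i j

/-- the commutator with `H` in the Duhamel function is a boundary term. -/
theorem gduh_commutator (H : Matrix m m ℂ) (β : ℝ) (A B : Matrix m m ℂ) :
    gduh H β (A * H - H * A) B = gev H β (A * B) - gev H β (B * A) := by
  have hd : ∀ τ : ℝ, HasDerivAt (fun τ : ℝ => -(A * gW H τ * B * gW H (β - τ)).trace.re)
      (((A * H - H * A) * gW H τ * B * gW H (β - τ)).trace.re) τ := fun τ => by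
    open scoped Matrix.Norms.Operator in
    have h1 : HasDerivAt (gW H) (-(gW H τ * H)) τ := hasDerivAt_gW H τ
    open scoped Matrix.Norms.Operator in
    have h2 : HasDerivAt (fun τ : ℝ => gW H (β - τ)) (-(-(gW H (β - τ) * H))) τ :=
      HasDerivAt.comp_const_sub β τ (hasDerivAt_gW H (β - τ))
    open scoped Matrix.Norms.Operator in
    have h3 := ((h1.const_mul A).mul_const B).mul h2
    open scoped Matrix.Norms.Operator in
    let L : Matrix m m ℂ →L[ℝ] ℝ := LinearMap.toContinuousLinearMap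
      (Complex.reLm.comp (Matrix.traceLinearMap m ℝ ℂ))
    have h4 := (L.hasFDerivAt.comp_hasDerivAt τ h3).neg
    have hc := (gW_commute (Commute.refl H) τ).eq
    have e : ((A * H - H * A) * gW H τ * B * gW H (β - τ)).trace =
        -(A * -(gW H τ * H) * B * gW H (β - τ) +
          A * gW H τ * B * -(-(gW H (β - τ) * H))).trace := by
      rw [← hc, neg_neg, ← Matrix.mul_assoc (A * gW H τ * B), Matrix.trace_add,
        Matrix.trace_mul_comm _ H]
      simp only [Matrix.sub_mul, Matrix.mul_neg, Matrix.neg_mul, Matrix.trace_sub,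
        Matrix.trace_neg, Matrix.mul_assoc]
      ring
    rw [e]
    exact h4
  unfold gduh gev
  rw [intervalIntegral.integral_eq_sub_of_hasDerivAt (fun τ _ => hd τ)
    ((continuous_duhInt H β _ B).intervalIntegrable _ _), ← sub_div]
  simp only [sub_self, sub_zero, gW_zero, Matrix.mul_one]
  rw [Matrix.trace_mul_comm (A * gW H β) B, ← Matrix.mul_assoc]
  ring

/-! ### positivity, Cauchy-Schwarz -/

theorem gev_mono {H : Matrix m m ℂ} (hH : H.IsHermitian) {β : ℝ} (hW : Pos (gW H β))
    {A B : Matrix m m ℂ} (h : Pos (B - A)) : gev H β A ≤ gev H β B := by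
  rw [← sub_nonneg, ← gev_sub]
  exact div_nonneg (h.mul hW).trace_re_nonneg (gZ_nonneg hH β)

theorem gduh_nonneg_of_pos {H : Matrix m m ℂ} (hH : H.IsHermitian) {β : ℝ} (hβ : 0 ≤ β)
    (hW : ∀ t, 0 ≤ t → Pos (gW H t)) {A B : Matrix m m ℂ} (hA : Pos A) (hB : Pos B) :
    0 ≤ gduh H β A B := by
  refine div_nonneg (intervalIntegral.integral_nonneg hβ fun τ hτ => ?_) (gZ_nonneg hH β)
  exact (((hA.mul (hW τ hτ.1)).mul hB).mul (hW _ (sub_nonneg.2 hτ.2))).trace_re_nonneg

omit [DecidableEq m] in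
theorem trace_star_nonneg (A : Matrix m m ℂ) : 0 ≤ (Aᴴ * A).trace.re := by
  simp only [Matrix.trace, Matrix.diag, Matrix.mul_apply, Matrix.conjTranspose_apply,
    Complex.re_sum]
  refine Finset.sum_nonneg fun i _ => Finset.sum_nonneg fun k _ => ?_
  have : star (A k i) * A k i = ((Complex.normSq (A k i) : ℝ) : ℂ) := by
    rw [Complex.normSq_eq_conj_mul_self]; rfl
  rw [this, Complex.ofReal_re]
  exact Complex.normSq_nonneg _

theorem duhInt_star_nonneg {H : Matrix m m ℂ} (hH : H.IsHermitian) (s t : ℝ) (A : Matrix m m ℂ) :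
    0 ≤ (A * gW H s * Aᴴ * gW H t).trace.re := by
  have hs : gW H s = gW H (s / 2) * gW H (s / 2) := by rw [← gW_add]; congr 1; ring
  have ht : gW H t = gW H (t / 2) * gW H (t / 2) := by rw [← gW_add]; congr 1; ring
  have := trace_star_nonneg (gW H (s / 2) * Aᴴ * gW H (t / 2))
  simp only [Matrix.conjTranspose_mul, (gW_herm hH _).eq, Matrix.conjTranspose_conjTranspose]
    at this
  rw [Matrix.mul_assoc (gW H (t / 2)), Matrix.trace_mul_comm] at this
  rw [hs, ht]
  simpa only [Matrix.mul_assoc] using this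

theorem gev_star_nonneg {H : Matrix m m ℂ} (hH : H.IsHermitian) (β : ℝ) (A : Matrix m m ℂ) :
    0 ≤ gev H β (Aᴴ * A) := by
  have := duhInt_star_nonneg hH 0 β Aᴴ
  rw [gW_zero, Matrix.mul_one, Matrix.conjTranspose_conjTranspose] at this
  exact div_nonneg this (gZ_nonneg hH β)

theorem gduh_star_nonneg {H : Matrix m m ℂ} (hH : H.IsHermitian) {β : ℝ} (hβ : 0 ≤ β)
    (A : Matrix m m ℂ) : 0 ≤ gduh H β A Aᴴ :=
  div_nonneg (intervalIntegral.integral_nonneg hβ fun _ _ => duhInt_star_nonneg hH _ _ A)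
    (gZ_nonneg hH β)

theorem cs_of_quad {a b c : ℝ} (h : ∀ t : ℝ, 0 ≤ a * (t * t) + 2 * b * t + c) :
    b ^ 2 ≤ a * c := by
  have := discrim_le_zero h
  unfold discrim at this
  nlinarith

theorem gev_cs {H : Matrix m m ℂ} (hH : H.IsHermitian) (β : ℝ) (A B : Matrix m m ℂ) :
    gev H β (Aᴴ * B) ^ 2 ≤ gev H β (Aᴴ * A) * gev H β (Bᴴ * B) := by
  refine cs_of_quad fun t => ?_
  have h := gev_star_nonneg hH β ((t : ℂ) • A + B)
  have e : gev H β (Bᴴ * A) = gev H β (Aᴴ * B) := by
    rw [← gev_conjTranspose hH, Matrix.conjTranspose_mul, Matrix.conjTranspose_conjTranspose]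
  have e2 : ((t : ℂ) • A)ᴴ = (t : ℂ) • Aᴴ := by simp
  simp only [Matrix.conjTranspose_add, e2, Matrix.add_mul, Matrix.mul_add, Matrix.smul_mul,
    Matrix.mul_smul, gev_add, gev_smul, e] at h
  nlinarith

theorem gduh_cs {H : Matrix m m ℂ} (hH : H.IsHermitian) {β : ℝ} (hβ : 0 ≤ β)
    (A B : Matrix m m ℂ) : gduh H β A Bᴴ ^ 2 ≤ gduh H β A Aᴴ * gduh H β B Bᴴ := by
  refine cs_of_quad fun t => ?_
  have h := gduh_star_nonneg hH hβ ((t : ℂ) • A + B)
  have e : gduh H β B Aᴴ = gduh H β A Bᴴ := by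
    rw [← gduh_conjTranspose hH, Matrix.conjTranspose_conjTranspose, gduh_comm]
  have e2 : ((t : ℂ) • A)ᴴ = (t : ℂ) • Aᴴ := by simp
  simp only [Matrix.conjTranspose_add, e2, gduh_add_left, gduh_add_right, gduh_smul_left,
    gduh_smul_right, e] at h
  nlinarith

end Crest.Agent.N337
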