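import Crest.Prelude.Def_SpinModel

/-!
# Row 337 (S0524-S0528): frozen definitions and interface statements

`n = twoS`.  Finite site set `X`, ferromagnetic coupling `J`.  `Sp` (= S⁺) REMOVES a magnon,
`Sm` creates one, `num x = S - S^z_x` counts magnons.  See notes table (row 337, BLUEPRINT).
-/

set_option autoImplicit false

namespace Crest.Agent.N337

open Crest.MathPhysics.SpinModel Filter Topology

section general
variable {X : Type} [Fintype X] [DecidableEq X]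

/-- operators on the spin configurations of `X`. -/
abbrev Op (X : Type) (n : ℕ) : Type := Matrix (X → Fin (n + 1)) (X → Fin (n + 1)) ℂ

noncomputable def Sp (n : ℕ) (x : X) : Op X n := siteOpOn x (spinPlus n)
noncomputable def Sm (n : ℕ) (x : X) : Op X n := siteOpOn x (spinMinus n)
noncomputable def Sz (n : ℕ) (x : X) : Op X n := siteOpOn x (spinZ n)
/-- magnon number `S - S^z_x`. -/
noncomputable def num (n : ℕ) (x : X) : Op X n := ((spinVal n : ℝ) : ℂ) • (1 : Op X n) - Sz n x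

noncomputable def ham (n : ℕ) (J : X → X → ℝ) : Op X n :=
  -(1 / 2 : ℂ) • ∑ x : X, ∑ y : X, ((J x y : ℝ) : ℂ) • spinDotOn n x y
noncomputable def magn (X : Type) [Fintype X] [DecidableEq X] (n : ℕ) : Op X n := ∑ x : X, Sz n x
noncomputable def hamF (n : ℕ) (J : X → X → ℝ) (h : ℝ) : Op X n :=
  ham n J - ((h : ℝ) : ℂ) • magn X n
/-- `exp (-t (H - h M))`. -/
noncomputable def W (n : ℕ) (J : X → X → ℝ) (h t : ℝ) : Op X n :=
  NormedSpace.exp ((-(t : ℂ)) • hamF n J h)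
noncomputable def Zp (n : ℕ) (J : X → X → ℝ) (β h : ℝ) : ℝ := (W n J h β).trace.re
/-- Gibbs expectation (real part). -/
noncomputable def ev (n : ℕ) (J : X → X → ℝ) (β h : ℝ) (A : Op X n) : ℝ :=
  (A * W n J h β).trace.re / Zp n J β h
/-- un-normalised Duhamel function `∫₀^β Tr (A e^{-τH} B e^{-(β-τ)H}) dτ / Z` (real part). -/
noncomputable def duh (n : ℕ) (J : X → X → ℝ) (β h : ℝ) (A B : Op X n) : ℝ :=
  (∫ τ in (0 : ℝ)..β, (A * W n J h τ * B * W n J h (β - τ)).trace.re) / Zp n J β h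
noncomputable def SpF (n : ℕ) (a : X → ℝ) : Op X n := ∑ x : X, ((a x : ℝ) : ℂ) • Sp n x
noncomputable def SmF (n : ℕ) (a : X → ℝ) : Op X n := ∑ x : X, ((a x : ℝ) : ℂ) • Sm n x
/-- equal-time form `⟨S⁻(a) S⁺(a)⟩`. -/
noncomputable def Qf (n : ℕ) (J : X → X → ℝ) (β h : ℝ) (a : X → ℝ) : ℝ :=
  ev n J β h (SmF n a * SpF n a)
/-- Duhamel form `m₀(a)`. -/
noncomputable def Df (n : ℕ) (J : X → X → ℝ) (β h : ℝ) (a : X → ℝ) : ℝ :=
  duh n J β h (SpF n a) (SmF n a)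
/-- finite-volume pressure. -/
noncomputable def press (n : ℕ) (J : X → X → ℝ) (β h : ℝ) : ℝ :=
  Real.log (Zp n J β h) / (β * (Fintype.card X : ℝ))
def ind (A : Finset X) : X → ℝ := fun x => if x ∈ A then 1 else 0

structure Ferro (J : X → X → ℝ) : Prop where
  symm : ∀ x y, J x y = J y x
  nonneg : ∀ x y, 0 ≤ J x y
  diag : ∀ x, J x x = 0

/-- entrywise real and nonnegative. -/
def Pos {m : Type} (A : Matrix m m ℂ) : Prop := ∀ i j, (A i j).im = 0 ∧ 0 ≤ (A i j).re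

/-- Dirichlet form of `J` restricted to the sites outside `R`. -/
noncomputable def dir (J : X → X → ℝ) (R : Finset X) (ψ : X → ℝ) : ℝ :=
  (1 / 2) * ∑ x ∈ Rᶜ, ∑ y ∈ Rᶜ, J x y * (ψ x - ψ y) ^ 2

/-- the rarity weight `(2 n e Q(1_B) / m)^m`. -/
noncomputable def rar (n : ℕ) (J : X → X → ℝ) (β h : ℝ) (B : Finset X) (m : ℕ) : ℝ :=
  (2 * n * Real.exp 1 * Qf n J β h (ind B) / m) ^ m

end general

/-- **(N)** Gaussian domination from the half-plane Lee-Yang property, equal times. -/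
def NewtonStmt : Prop :=
  ∀ (X : Type) [Fintype X] [DecidableEq X] (n : ℕ) (J : X → X → ℝ) (β h : ℝ),
    1 ≤ n → Ferro J → 0 < β → ∀ (a a' : X → ℝ), (∀ x, 0 ≤ a x) → (∀ x, 0 ≤ a' x) →
    ∀ k : ℕ, 1 ≤ k →
      ev n J β h (SmF n a' ^ k * SpF n a ^ k) ≤
        (k.factorial : ℝ) ^ 2 * (Real.exp 1 * ev n J β h (SmF n a' * SpF n a) / k) ^ k

/-- **(KV)** the infrared bound from the determinantal environment representation. -/
def KVStmt : Prop :=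
  ∀ (X : Type) [Fintype X] [DecidableEq X] (n : ℕ) (J : X → X → ℝ) (β h : ℝ),
    1 ≤ n → Ferro J → 0 < β → 0 < h → ∀ (a : X → ℝ), (∀ x, 0 ≤ a x) →
    ∀ (c0 : ℝ) (c : Finset X → ℝ) (𝒲 : X → Finset (Finset X)),
      0 ≤ c0 → (∀ A, 0 ≤ c A) → c ∅ = 0 → (∀ x, ∅ ∉ 𝒲 x) →
      (∀ R : Finset X, ∃ Good : Finset X, Disjoint Good R ∧
        (∀ ψ : X → ℝ, (∀ x, 0 ≤ ψ x) →
          (∑ x ∈ Good, a x * ψ x) ^ 2 ≤ (c0 + ∑ A ∈ R.powerset, c A) *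
            (spinVal n * dir J R ψ + h * ∑ x ∈ Rᶜ, ψ x ^ 2)) ∧
        (∀ x, x ∉ Good → ∃ B ∈ 𝒲 x, B ⊆ R)) →
      Df n J β h a ≤
        n * (c0 + ∑ A : Finset X, c A * rar n J β h A A.card) +
          2 * n * Real.exp 1 * ∑ x : X, a x * ∑ B ∈ 𝒲 x,
            rar n J β h (insert x B) B.card *
              ∑ v ∈ insert x B, duh n J β h (SpF n a) (Sm n v)

/-! ### abstract thermal moments -/
section moments
variable {m : Type} [Fintype m] [DecidableEq m]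

noncomputable def gW (H : Matrix m m ℂ) (t : ℝ) : Matrix m m ℂ := NormedSpace.exp ((-(t : ℂ)) • H)
noncomputable def gev (H : Matrix m m ℂ) (β : ℝ) (A : Matrix m m ℂ) : ℝ :=
  (A * gW H β).trace.re / (gW H β).trace.re
noncomputable def gduh (H : Matrix m m ℂ) (β : ℝ) (A B : Matrix m m ℂ) : ℝ :=
  (∫ τ in (0 : ℝ)..β, (A * gW H τ * B * gW H (β - τ)).trace.re) / (gW H β).trace.re
end moments

/-- **(M)** moment inequalities.  `u = ⟨B*B⟩`, `v = ⟨BB*⟩`, `m₀` Duhamel, `m₁ = v - u`,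
`m₂ = ⟨[[B,H],B*]⟩`. (`ev n J β h = gev (hamF n J h) β`, `duh = gduh`, by `rfl`.) -/
def MomStmt : Prop :=
  ∀ (m : Type) [Fintype m] [DecidableEq m] [Nonempty m] (H B : Matrix m m ℂ) (β : ℝ),
    H.IsHermitian → 0 < β →
    let u := gev H β (B.conjTranspose * B)
    let v := gev H β (B * B.conjTranspose)
    let m0 := gduh H β B B.conjTranspose
    let C := B * H - H * B
    let m2 := gev H β (C * B.conjTranspose - B.conjTranspose * C)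
    0 ≤ u ∧ 0 ≤ v ∧ 0 ≤ m0 ∧ 0 ≤ m2 ∧ (v - u) ^ 2 ≤ m0 * m2 ∧
    (0 < u → 0 < v → β * gev H β (B.conjTranspose * C) ≤ u * Real.log (v / u)) ∧
    (∀ E : ℝ, 0 < E → u < v → m2 ≤ E * (v - u) → (v - u) / (Real.exp (β * E) - 1) ≤ u) ∧
    (∀ E : ℝ, 0 < E → m2 = E * (v - u) →
      u ≤ (v - u) / (Real.exp (β * E) - 1) +
        (m0 - (v - u) / E) * (1 + β * E + 6 * (β * E) ^ 2) / β)

/-! ### lattice, torus -/

structure Coup {d : ℕ} (J : (Fin d → ℤ) → ℝ) : Prop where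
  zero : J 0 = 0
  symm : ∀ z, J (-z) = J z
  nonneg : ∀ z, 0 ≤ J z
  fin : (Function.support J).Finite
  gen : AddSubgroup.closure (Function.support J) = ⊤

abbrev Tor (d L : ℕ) : Type := Fin d → ZMod L

def tcast {d : ℕ} (L : ℕ) (z : Fin d → ℤ) : Tor d L := fun a => (z a : ZMod L)

/-- periodised coupling. -/
noncomputable def torJ {d : ℕ} (J : (Fin d → ℤ) → ℝ) (L : ℕ) (x y : Tor d L) : ℝ :=
  ∑ᶠ z : Fin d → ℤ, if tcast L z = y - x then J z else 0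

/-- sup-distance on the torus. -/
def tdist {d L : ℕ} (x y : Tor d L) : ℕ :=
  Finset.univ.sup fun a : Fin d => ((y a - x a).valMinAbs).natAbs

/-- one-magnon energy `S ∑_z J z (1 - cos p·z)`. -/
noncomputable def eps {d : ℕ} (n : ℕ) (J : (Fin d → ℤ) → ℝ) (p : Fin d → ℝ) : ℝ :=
  spinVal n * ∑ᶠ z : Fin d → ℤ, J z * (1 - Real.cos (∑ a, p a * (z a : ℝ)))

/-- momentum in `[-π, π]^d` of a torus mode. -/
noncomputable def mom {d L : ℕ} (k : Tor d L) : Fin d → ℝ :=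
  fun a => 2 * Real.pi * ((k a).valMinAbs : ℝ) / (L : ℝ)

noncomputable def epsT {d L : ℕ} (n : ℕ) (J : (Fin d → ℤ) → ℝ) (k : Tor d L) : ℝ :=
  eps n J (mom k)

/-- the character `e_k(x)`. -/
noncomputable def chi {d L : ℕ} [NeZero L] (k x : Tor d L) : ℂ :=
  ∏ a, ZMod.stdAddChar (k a * x a)

/-- convolution kernel with Fourier multiplier `f`. -/
noncomputable def ker {d L : ℕ} [NeZero L] (f : Tor d L → ℝ) (x : Tor d L) : ℝ :=
  (∑ k : Tor d L, f k * (chi k x).re) / (L : ℝ) ^ d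

/-- ideal magnon density on the torus. -/
noncomputable def nTor {d : ℕ} (n : ℕ) (J : (Fin d → ℤ) → ℝ) (L : ℕ) [NeZero L] (β h : ℝ) : ℝ :=
  (∑ k : Tor d L, 1 / (Real.exp (β * (epsT n J k + h)) - 1)) / (L : ℝ) ^ d

/-- ideal magnon density in infinite volume. -/
noncomputable def nInf {d : ℕ} (n : ℕ) (J : (Fin d → ℤ) → ℝ) (β h : ℝ) : ℝ :=
  ∫ p in Set.pi Set.univ (fun _ : Fin d => Set.Icc (-Real.pi) Real.pi),
    1 / ((2 * Real.pi) ^ d * (Real.exp (β * (eps n J p + h)) - 1))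

/-- **(Geo)** multiscale covering of a red set and extension of functions across it. -/
def GeoStmt : Prop :=
  ∀ (d : ℕ) (J : (Fin d → ℤ) → ℝ), 2 ≤ d → Coup J → ∃ (K : ℝ) (L0 : ℕ), 1 ≤ K ∧
    ∀ (L : ℕ) [NeZero L], L0 ≤ L →
    ∃ (jm : ℕ) (𝒲 : ℕ → Tor d L → Finset (Finset (Tor d L))) (rad : ℕ → ℕ),
      2 ^ jm ≤ L ∧
      (∀ j u, ((𝒲 j u).card : ℝ) ≤ K ^ (2 ^ j)) ∧
      (∀ j, j ≤ jm → ((2 * rad j + 1 : ℕ) : ℝ) ^ d ≤ K ^ (2 ^ j)) ∧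
      (∀ j u, ∀ B ∈ 𝒲 j u, B.card = 2 ^ j ∧ (∀ x ∈ B, tdist u x ≤ rad j) ∧
        ∀ x ∈ B, ∑ y ∈ B.erase x, 1 / (tdist x y : ℝ) ≤ K) ∧
      ∀ R : Finset (Tor d L), ∃ (Good : Finset (Tor d L)) (w : Tor d L → ℝ),
        Disjoint Good R ∧
        (∀ x, x ∉ Good → ∃ j ≤ jm, ∃ u, tdist x u ≤ rad j ∧ ∃ B ∈ 𝒲 j u, B ⊆ R) ∧
        (∀ x, w x = 1 ∨ (1 ≤ w x ∧
          ∃ j ≤ jm, w x ≤ K ^ (2 ^ j) ∧ ∃ u, tdist x u ≤ rad j ∧ ∃ B ∈ 𝒲 j u, B ⊆ R)) ∧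
        ∀ ψ : Tor d L → ℝ, (∀ x, 0 ≤ ψ x) → ∃ φ : Tor d L → ℝ, (∀ x, 0 ≤ φ x) ∧
          (∀ x ∈ Good, φ x = ψ x) ∧
          (1 / 2) * ∑ x, ∑ y, torJ J L x y * (φ x - φ y) ^ 2 / max (w x) (w y) ≤
            dir (torJ J L) R ψ ∧
          ∑ x, φ x ^ 2 / w x ≤ ∑ x ∈ Rᶜ, ψ x ^ 2

/-- **(Free)** kernels of the free magnon on the torus. -/
def FreeStmt : Prop :=
  ∀ (d n : ℕ) (J : (Fin d → ℤ) → ℝ), 3 ≤ d → 1 ≤ n → Coup J → ∃ (C : ℝ) (L0 : ℕ), 1 ≤ C ∧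
    ∀ (L : ℕ) [NeZero L], L0 ≤ L →
      Ferro (torJ J L) ∧ (∀ k : Tor d L, 0 ≤ epsT n J k) ∧
      (∀ k x : Tor d L, ((spinVal n : ℝ) : ℂ) * ∑ y, ((torJ J L x y : ℝ) : ℂ) * (chi k x - chi k y)
        = ((epsT n J k : ℝ) : ℂ) * chi k x) ∧
      ∀ μ : ℝ, 0 < μ →
        (∀ x : Tor d L, 0 ≤ ker (fun k => 1 / (epsT n J k + μ)) x) ∧
        (∀ x : Tor d L, ker (fun k => 1 / (epsT n J k + μ)) x ≤
          C / max 1 (tdist 0 x : ℝ) + C / (μ * (L : ℝ) ^ d)) ∧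
        ∀ h : ℝ, 0 < h → ∀ x : Tor d L,
          ker (fun k => (μ / (μ + epsT n J k)) ^ 2 / (epsT n J k + h)) x ≤
            min (C * Real.sqrt μ) (C / max 1 (tdist 0 x : ℝ)) + C / (h * (L : ℝ) ^ d)

/-- **(FV)** the finite-volume two-sided bound on the magnon density. -/
def FinVolStmt : Prop :=
  ∀ (d n : ℕ) (J : (Fin d → ℤ) → ℝ), 3 ≤ d → 1 ≤ n → Coup J → ∃ β0 : ℝ, 1 < β0 ∧
    ∀ β : ℝ, β0 ≤ β → ∀ h : ℝ, 0 < h → ∃ L0 : ℕ, ∀ (L : ℕ) [NeZero L], L0 ≤ L →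
      let ρ := ev n (torJ J L) β h (num n 0)
      let η := β ^ (-(5 / 4 : ℝ))
      ρ ≤ η ∧ (1 - η) * nTor n J L (β * (1 + η)) h ≤ ρ ∧
        ρ ≤ nTor n J L (β * (1 - η)) h + β ^ (-(11 / 4 : ℝ))

/-- **(Th)** thermodynamic limit, free boxes and tori, and the spontaneous magnetisation. -/
def ThermoStmt : Prop :=
  ∀ (d n : ℕ) (J : (Fin d → ℤ) → ℝ), 1 ≤ d → 1 ≤ n → Coup J →
    ∃ (p : ℝ → ℝ → ℝ) (m : ℝ → ℝ), IsPressure d n J p ∧ IsMagnetization p m ∧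
      (∀ β, 0 < β → ConvexOn ℝ Set.univ (p β)) ∧
      ∀ β, 0 < β → ∀ h : ℝ,
        Tendsto (fun L : ℕ => press n (torJ J (L + 1)) β h) atTop (𝓝 (p β h))

/-- **(Sand)** infinite-volume sandwich (from `FinVolStmt`, `ThermoStmt`). -/
def SandStmt : Prop :=
  ∀ (d n : ℕ) (J : (Fin d → ℤ) → ℝ), 3 ≤ d → 1 ≤ n → Coup J →
    ∀ (p : ℝ → ℝ → ℝ) (m : ℝ → ℝ), IsPressure d n J p → IsMagnetization p m →
    ∃ β0 : ℝ, 1 < β0 ∧ ∀ β : ℝ, β0 ≤ β →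
      let η := β ^ (-(5 / 4 : ℝ))
      spinVal n - m β ≤ η ∧ (1 - η) * nInf n J (β * (1 + η)) 0 ≤ spinVal n - m β ∧
        spinVal n - m β ≤ nInf n J (β * (1 - η)) 0 + β ^ (-(11 / 4 : ℝ))

/-- **(Asy1)** leading asymptotics of the ideal density, general coupling, `d = 3`. -/
def Asy1Stmt : Prop :=
  ∀ (n : ℕ) (J : (Fin 3 → ℤ) → ℝ), 1 ≤ n → Coup J →
    Tendsto (fun β : ℝ => β ^ (3 / 2 : ℝ) * nInf n J β 0) atTop
      (𝓝 ((riemannZeta (3 / 2)).re / (8 * Real.pi ^ (3 / 2 : ℝ) *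
        Real.sqrt (Matrix.det (Matrix.of fun a b : Fin 3 =>
          spinVal n / 2 * ∑ᶠ z : Fin 3 → ℤ, J z * ((z a : ℝ) * (z b : ℝ)))))))

/-- **(Asy2)** two-term asymptotics of the nearest-neighbour ideal density. -/
def Asy2Stmt : Prop :=
  ∀ n : ℕ, 1 ≤ n →
    Tendsto (fun β : ℝ => (β * spinVal n) ^ (5 / 2 : ℝ) *
      (idealMagnonDensity 3 n β
        - (riemannZeta (3 / 2)).re / (8 * Real.pi ^ (3 / 2 : ℝ)) * (β * spinVal n) ^ (-(3 / 2 : ℝ))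
        - 3 * (riemannZeta (5 / 2)).re / (128 * Real.pi ^ (3 / 2 : ℝ)) *
          (β * spinVal n) ^ (-(5 / 2 : ℝ)))) atTop (𝓝 0)

end Crest.Agent.N337
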